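import Vale.Agent.P330.W.H281.SInst
import Vale.Agent.P330.H155.StJ
import Vale.Agent.P330.W.H659.StartP
import Vale.Agent.P330.W.H847.SzCalc
import Vale.Agent.P330.H247.Num

/-!
# The family of block systems from records of the sites and the reading of the solution

`RecIn T α`: programs and records of the sites, with records of polylogarithmic size; `SolIn T`: the
reading of the solution. `rest : Rest T α`.
-/

set_option autoImplicit false
set_option linter.unusedSectionVars false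

namespace Vale.Agent.P330.H281

open Vale.Agent.Lib.PolyTime Function H797
open H155 (TopJ OmJ SJ XJ kapR nLab numJ nSJ bsJ)
open H475 (SFam)
open H838 (QLin QLog len lg)
open H604 (ocK)
open H840 (A0 lqJ dJ leJ)
open H933 (Fl th eF)
open H847 (SB VB)
open W.H912

/-- Programs and records of the sites. -/
structure RecIn (T : TopJ) (α : Type) [Enc α] where
  /-- the programs of the sites -/
  P : WPrg α
  hP : P.PTs ∅
  /-- the public record of a site -/
  pub : ∀ I, OmJ I → α
  rep : ∀ I, P.Rep (T.Y I) (pub I)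
  pubT : EndOfLine × ℕ → α
  pubT_pt : PT ∅ pubT
  pubT_eq : ∀ I h, pubT (I, (numJ I h : ℕ)) = pub I h
  sb : SB pub

/-- The reading of the solution. -/
structure SolIn (T : TopJ) where
  solT : EndOfLine × List (LB Word) → Word
  solT_pt : PT ∅ solT
  solT_ok : ∀ I, ∀ w : (T.Y I).Cf, (T.Y I).bsys.Valid w →
    (¬ (T.Y I).bsys.Valid ((T.Y I).bsys.step false w) ∨
      (w ≠ (T.Y I).bsys.w0 ∧ ¬ (T.Y I).bsys.Valid ((T.Y I).bsys.step true w))) →
    I.IsSolution (solT (I, List.ofFn fun j =>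
      toLB (H985.cS (leJ I)) ((T.Y I).bsys.word w ((numJ I).symm j))))

namespace RecIn

variable {T : TopJ} {α : Type} [Enc α] (R : RecIn T α)

/-- The site with the number zero. -/
noncomputable def h0 (I : EndOfLine) : OmJ I :=
  (numJ I).symm ⟨0, H604.nS_pos H840.C1 H840.c0 H840.hC I⟩

theorem pubT_zero (I : EndOfLine) : R.pubT (I, 0) = R.pub I (h0 I) := by
  rw [← R.pubT_eq]
  unfold h0
  rw [Equiv.apply_symm_apply]

theorem sl_qlog : QLog fun I => nLab A0 * eF (leJ I) :=
  (QLog.const _).mul H247.qlog_eF_leJ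

theorem exists_qlog {f : α → ℕ} (hf : PBd f) :
    ∃ B : EndOfLine → ℕ, QLog B ∧ ∀ I h, f (R.pub I h) ≤ B I := by
  obtain ⟨c, hc⟩ := hf
  obtain ⟨B, hB, hB'⟩ := R.sb
  refine ⟨fun I => (B I + 2) ^ c, (hB.add (QLog.const 2)).pow c, fun I h => ?_⟩
  refine (hc _).trans ?_
  unfold pb
  exact Nat.pow_le_pow_left (Nat.add_le_add_right (hB' I h) 2) c

include R in
theorem nr_qlog : QLog fun I => (T.Y I).nb + (T.Y I).L := by
  obtain ⟨B, hB, hB'⟩ := R.exists_qlog R.hP.nb_bd
  obtain ⟨C, hC, hC'⟩ := R.exists_qlog R.hP.L_bd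
  refine (hB.add hC).mono fun I => ?_
  have h1 := hB' I (h0 I)
  have h2 := hC' I (h0 I)
  rw [(R.rep I).nb] at h1
  rw [(R.rep I).L] at h2
  omega

/-- The length of the blocks. -/
theorem exists_m : ∃ m : EndOfLine → ℕ, PT ∅ m ∧ QLog m ∧ (∀ I, 3 ≤ m I) ∧
    (∀ I, blen ((T.Y I).nb + (T.Y I).L) (nLab A0 * eF (leJ I)) ≤ m I) ∧
    ∀ I h, 2 * esize (R.pub I h) + 1 ≤ m I :=
  H847.exists_m R.nr_qlog sl_qlog R.sb

theorem pt_zero : PT ∅ fun I : EndOfLine => R.pubT (I, 0) :=
  R.pubT_pt.comp (PT.id.pair (PT.const 0))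

include R in
theorem L_pt : PT ∅ fun I => (T.Y I).L :=
  (R.hP.L.comp R.pt_zero).congr fun I => by rw [R.pubT_zero, (R.rep I).L]

include R in
theorem L_bd : PBd fun I => (T.Y I).L :=
  (PBd.comp (b := R.P.L) R.hP.L_bd R.pt_zero).mono fun I => by
    rw [R.pubT_zero, (R.rep I).L]

include R in
theorem nb_bd : PBd fun I => (T.Y I).nb :=
  (PBd.comp (b := R.P.nb) R.hP.nb_bd R.pt_zero).mono fun I => by
    rw [R.pubT_zero, (R.rep I).nb]

include R in
/-- The start blocks. -/
theorem exists_st : ∃ st : EndOfLine × ℕ → LB Word, PT ∅ st ∧ ∀ I h, st (I, (numJ I h : ℕ)) =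
    toLB (H985.cS (leJ I)) ((T.Y I).bsys.word (T.Y I).bsys.w0 h) := by
  have hrp : ∃ b : EndOfLine → ℕ, PBd b ∧ ∀ I (s : SJ I), esize (H985.cS (leJ I) s) ≤ b I := by
    refine ⟨fun I => nLab A0 * eF (leJ I) * 3,
      ((PBd.const _).mul H155.lparJ.eFbd).mul (PBd.const 3), fun I s => ?_⟩
    refine (esize_list_le (B := 1) fun x _ => (esize_bool x).le).trans ?_
    rw [H985.length_cS]
  obtain ⟨st, h1, h2⟩ := H659.exists_st (A := ∅) (Y := T.Y) (P := R.P.prg) R.hP.prg
    (c := fun I => symCode (nLab A0) (leJ I)) (rp := fun I => H985.cS (leJ I)) (pubA := R.pub)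
    (good := fun _ => True) (PT.const true) (fun I _ => (R.rep I).rep) R.pubT_pt
    numJ (H604.nS_pt H840.C1 H840.c0 H840.hC) (H604.nS_bd H840.C1 H840.c0 H840.hC)
    R.pubT_eq (wrN := wrNJ) (fun i => H604.wrNS_pt H840.C1 H840.c0 H840.hC A0
      (fun I => Fl (leJ I)) (fun I => th (leJ I)) 75 i) (fun i I h => wrNJ_eq T i I h)
    R.L_pt R.L_bd R.nb_bd
    hrp (cst := H155.cstJ) (fun I _ => T.rfacts I) (bs := bsJ) H155.pt_bsJ
    (fun I _ h => T.bsJ_eq I h)
  exact ⟨st, h1, fun I h => h2 I trivial h⟩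

/-- **What remains, from records and the solution.** -/
noncomputable def rest (S : SolIn T) : Rest T α where
  P := R.P
  hP := R.hP
  pub := R.pub
  rep := R.rep
  pubT := R.pubT
  pubT_pt := R.pubT_pt
  pubT_eq := R.pubT_eq
  m := R.exists_m.choose
  m_pt := R.exists_m.choose_spec.1
  m_qlog := R.exists_m.choose_spec.2.1
  m_ge := R.exists_m.choose_spec.2.2.1
  m_blk := R.exists_m.choose_spec.2.2.2.1
  m_pub := R.exists_m.choose_spec.2.2.2.2
  st := R.exists_st.choose
  st_pt := R.exists_st.choose_spec.1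
  st_eq := R.exists_st.choose_spec.2
  solT := S.solT
  solT_pt := S.solT_pt
  solT_ok := S.solT_ok

end RecIn

end Vale.Agent.P330.H281
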