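import Vale.Agent.P330.H155.StJ
import Vale.Agent.P330.W.H604.SNum
import Vale.Agent.P330.W.H912.Fam
import Vale.Agent.P330.W.H912.Wsym

/-!
# The family of block systems of the instances of End-of-Line

`Rest T`: what remains to be given for the family `T.Y` of register systems (`H155/RSJ`): the
programs of the sites, the public records, the lengths of the blocks, the start blocks and the
solution. `Rest.sin`: the input of `H912/Fam`; `Rest.sfam : SFam`.
-/

set_option autoImplicit false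
set_option linter.unusedSectionVars false

namespace Vale.Agent.P330.H281

open Vale.Agent.Lib.PolyTime Function H797
open H155 (TopJ OmJ SJ XJ kapR nLab nSJ numJ)
open H475 (SFam)
open H838 (QLin QLog len)
open H604 (ocK sOS sONS wrNS)
open H840 (A0 lqJ dJ leJ)
open H933 (Fl th eF)
open W.H912

/-- The letters of the expander. -/
noncomputable def sOJ (I : EndOfLine) (j : Fin 40) : OmJ I ≃ OmJ I := sOS H840.C1 H840.c0 I j

/-- The wires on numbers. -/
noncomputable def wrNJ (i : Fin (ocK A0 75)) : EndOfLine × ℕ → ℕ :=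
  wrNS H840.C1 H840.c0 H840.hC A0 (fun I => Fl (leJ I)) (fun I => th (leJ I)) 75 i

theorem wrNJ_eq (T : TopJ) (i : Fin (ocK A0 75)) (I : EndOfLine) (h : OmJ I) :
    wrNJ i (I, (numJ I h : ℕ)) = numJ I ((T.Y I).wr i h) :=
  H604.wrNS_eq H840.C1 H840.c0 H840.hC A0 (fun I => Fl (leJ I)) (fun I => th (leJ I)) 75 i I h

/-- What remains to be given for the family of register systems. -/
structure Rest (T : TopJ) (α : Type) [Enc α] where
  /-- the programs of the sites -/
  P : WPrg α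
  hP : P.PTs ∅
  /-- the public record of a site -/
  pub : ∀ I, OmJ I → α
  rep : ∀ I, P.Rep (T.Y I) (pub I)
  pubT : EndOfLine × ℕ → α
  pubT_pt : PT ∅ pubT
  pubT_eq : ∀ I h, pubT (I, (numJ I h : ℕ)) = pub I h
  /-- the length of the blocks -/
  m : EndOfLine → ℕ
  m_ge : ∀ I, 3 ≤ m I
  m_pt : PT ∅ m
  m_qlog : QLog m
  m_blk : ∀ I, blen ((T.Y I).nb + (T.Y I).L) (nLab A0 * eF (leJ I)) ≤ m I
  m_pub : ∀ I h, 2 * esize (pub I h) + 1 ≤ m I
  /-- the start blocks -/
  st : EndOfLine × ℕ → LB Word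
  st_pt : PT ∅ st
  st_eq : ∀ I h, st (I, (numJ I h : ℕ)) =
    toLB (H985.cS (leJ I)) ((T.Y I).bsys.word (T.Y I).bsys.w0 h)
  /-- the solution -/
  solT : EndOfLine × List (LB Word) → Word
  solT_pt : PT ∅ solT
  solT_ok : ∀ I, ∀ w : (T.Y I).Cf, (T.Y I).bsys.Valid w →
    (¬ (T.Y I).bsys.Valid ((T.Y I).bsys.step false w) ∨
      (w ≠ (T.Y I).bsys.w0 ∧ ¬ (T.Y I).bsys.Valid ((T.Y I).bsys.step true w))) →
    I.IsSolution (solT (I, List.ofFn fun j =>
      toLB (H985.cS (leJ I)) ((T.Y I).bsys.word w ((numJ I).symm j))))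

namespace Rest

variable {T : TopJ} {α : Type} [Enc α] (R : Rest T α)

/-- **The input of the construction of the family of block systems.** -/
noncomputable def sin : SIn α Word where
  K := ocK A0 75
  own := H604.ownS A0 75
  κ := kapR
  κ_pos := TopJ.kapR_pos
  θ := 1 / 2 ^ 16
  θ_pos := by positivity
  ρ₁ := 1 / 2 ^ 17
  ρ₁_pos := by positivity
  c₀ := 1 / 64
  c₀_nonneg := by norm_num
  c₀_lt := by norm_num
  nO := 40
  nO_pos := by norm_num
  g := H143.rho0
  g_nonneg := H143.rho0_nonneg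
  g_lt := H143.rho0_lt
  N₀ := 0
  n := nSJ
  n_pos I := H604.nS_pos H840.C1 H840.c0 H840.hC I
  Om := OmJ
  fOm I := inferInstance
  num := numJ
  m := R.m
  m_ge := R.m_ge
  S := SJ
  X := XJ
  Y := T.Y
  own_eq I := rfl
  facts I _ := T.bfacts I
  sO := sOJ
  gap I _ := H604.gap_sOS H840.C1 H840.c0 H840.hC I
  n_qlin := H604.nS_qlin H840.C1 H840.c0 H840.hC
  m_qlog := R.m_qlog
  n_pt := H604.nS_pt H840.C1 H840.c0 H840.hC
  m_pt := R.m_pt
  wrN := wrNJ
  wrN_pt i := H604.wrNS_pt H840.C1 H840.c0 H840.hC A0 (fun I => Fl (leJ I))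
    (fun I => th (leJ I)) 75 i
  wrN_eq i I h := wrNJ_eq T i I h
  sON := sONS H840.C1 H840.c0 H840.hC
  sON_pt j := H604.sONS_pt H840.C1 H840.c0 H840.hC j
  sON_eq j I h := H604.sONS_eq H840.C1 H840.c0 H840.hC j I h
  P := R.P.prg
  hP := R.hP.prg
  sl I := nLab A0 * eF (leJ I)
  c I := symCode (nLab A0) (leJ I)
  rp I := H985.cS (leJ I)
  pubA := R.pub
  rep I _ := (R.rep I).rep
  pubT := R.pubT
  pubT_pt := R.pubT_pt
  pubT_eq := R.pubT_eq
  m_blk I _ := R.m_blk I
  m_pub := R.m_pub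
  st := R.st
  st_pt := R.st_pt
  st_eq I _ := R.st_eq I
  solT := R.solT
  solT_pt := R.solT_pt
  solT_ok I _ := R.solT_ok I

/-- **The family of block systems.** -/
noncomputable def sfam : SFam := R.sin.toSFam

end Rest

end Vale.Agent.P330.H281
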