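import Vale.Agent.P330.H985.RecInJ
import Vale.Agent.P330.H743.TopPJ
import Vale.Agent.P330.H780.TopPub

/-!
# The family of block systems of the instances of End-of-Line: assembly

`upper_of`: the family of block systems, from the size of the records.
-/

set_option autoImplicit false

namespace Vale.Agent.P330.H281

open Vale.Agent.Lib.PolyTime
open H155 (OmJ numJ)
open H475 (SFam UpperStmt)
open H743 (topJ)
open H659 (ProgPT PubLt baseJ)
open H838 (QLog)

theorem pubLtJ : PubLt topJ := fun _ q hq => H780.pub_lt _ _ q hq

theorem progPTJ : ProgPT topJ where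
  pg := H743.pt_progJ PT.id
  eqs := H743.pt_eqsJ PT.id
  prods := H743.pt_prodsJ PT.id
  out z := H743.pt_outLJ PT.id z H155.pt_nJ H155.pbd_nJ

/-- **The upper half from the size of the records.** -/
theorem upper_of (hs : QLog fun I => esize (baseJ topJ I)) : UpperStmt :=
  ⟨H985.sfamJ topJ pubLtJ progPTJ hs⟩

end Vale.Agent.P330.H281
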