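import Vale.Agent.P330.W.H281.UpJ
import Vale.Agent.P330.W.H659.SzP
import Vale.Agent.P330.H247.KitSz

/-!
# The upper half

`upperStmt`: there is a family of block systems for the instances of End-of-Line.
-/

set_option autoImplicit false

namespace Vale.Agent.P330.H281

open Vale.Agent.Lib.PolyTime

/-- **The upper half.** -/
theorem upperStmt : H475.UpperStmt :=
  upper_of (H985.qlog_baseJ H743.topJ H247.qlog_kitJ H247.qlog_iTJ H247.qlog_iMJ H247.qlog_iSJ
    H247.qlog_iBJ H659.qlog_pg H659.qlog_eqs H659.qlog_prods H659.qlog_out)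

end Vale.Agent.P330.H281
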